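import Vale.Agent.P302.Defs
import Vale.Agent.P302.Main

open Vale.Agent.P302

/-- The additive gap of the configuration LP for bin packing is unbounded, already for item sizes
strictly between `1/4` and `1/2`. -/
theorem Vale.Agent.Results.P302.UnboundedGap.result (c : ℕ) :
    ∃ I : List ℚ, (∀ a ∈ I, 1 / 4 < a ∧ a < 1 / 2) ∧ ⌈lp I⌉ + (c : ℤ) < (opt I : ℤ) := by
  obtain ⟨I, m, h1, h2, h3⟩ := main c
  refine ⟨I, h1, ?_⟩
  have h4 : ⌈lp I⌉ ≤ (m : ℤ) := Int.ceil_le.2 (by exact_mod_cast h2)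
  omega
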